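import Mathlib
import Vale.Agent.Lib.P183.HX.Data
import Vale.Agent.Lib.P183.HX.H7

/-!
# P183 (hexagon with a midpoint): the checker functions

Everything here is a computation on natural numbers.  Points of the `G`-set are numbers
below `1980`.
-/

namespace Vale.Agent.Lib.P183.HX

/-- joins in `H7` -/
def H7.sup (x y : H7) : H7 :=
  if H7.le x y then y else if H7.le y x then x else .top

def H7.ofN : ℕ → H7
  | 0 => .bot | 1 => .a1 | 2 => .a2 | 3 => .b1 | 4 => .b2 | 5 => .c | _ => .top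

def allL (f : H7 → Bool) : Bool :=
  f .bot && f .a1 && f .a2 && f .b1 && f .b2 && f .c && f .top

/-- `force n f = f n`; used to make the kernel evaluate `n` first -/
def force {α : Type} (n : ℕ) (f : ℕ → α) : α :=
  match n with
  | 0 => f 0
  | m + 1 => f (m + 1)

/-- entry `i` of the table `t` with entries of `w` bits -/
def lk (t w i : ℕ) : ℕ :=
  force i fun j => Nat.land (Nat.shiftRight t (Nat.mul w j)) (Nat.sub (Nat.pow 2 w) 1)

def allLt : ℕ → (ℕ → Bool) → Bool
  | 0, _ => true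
  | n + 1, f => f n && allLt n f

/-- the action of the generator number `k` -/
def stepN (k c : ℕ) : ℕ := lk (match k with | 0 => TA | 1 => TB | _ => TS) 11 c % 1980

/-- evaluation of a word (base four digits, leading sentinel `1`) -/
def evW : ℕ → ℕ → ℕ → ℕ
  | 0, _, c => c
  | n + 1, w, c => if w ≤ 1 then c else evW n (w / 4) (stepN (w % 4) c)

def mv (w1 w2 d c : ℕ) : ℕ :=
  match d with
  | 0 => stepN 0 c
  | 1 => stepN 1 c
  | 2 => evW 20 w1 c
  | _ => evW 20 w2 c

/-- evaluation of a derivation -/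
def evD (w1 w2 : ℕ) : ℕ → ℕ → ℕ → ℕ
  | 0, _, c => c
  | n + 1, D, c => if D ≤ 1 then c else evD w1 w2 n (D / 4) (mv w1 w2 (D % 4) c)

def repN (o : ℕ) : ℕ := lk REP 11 o
def labL (o : ℕ) : H7 := H7.ofN (lk LAB 3 o)
def wrd (o : ℕ) : ℕ := lk WRD 32 o

def orbE (c : ℕ) : ℕ := lk ORB 23 c
def orbN (c : ℕ) : ℕ := orbE c % 128
def hm (c : ℕ) : ℕ := evD 1 1 12 (orbE c / 128) c

/-- the seven congruences are the kernels of these maps -/
def keyN : H7 → ℕ → ℕ
  | .bot, c => c
  | .a1, c => lk KA1 8 c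
  | .a2, c => lk KA2 7 c
  | .b1, c => lk KB1 8 c
  | .b2, c => lk KB2 7 c
  | .c, c => lk KC 9 c
  | .top, _ => 0

/-- the induced actions on the blocks -/
def indN : H7 → ℕ → ℕ → ℕ
  | .bot, k, r => stepN k r
  | .a1, k, r => lk (match k with | 0 => FA1a | 1 => FA1b | _ => FA1s) 8 r
  | .a2, k, r => lk (match k with | 0 => FA2a | 1 => FA2b | _ => FA2s) 7 r
  | .b1, k, r => lk (match k with | 0 => FB1a | 1 => FB1b | _ => FB1s) 8 r
  | .b2, k, r => lk (match k with | 0 => FB2a | 1 => FB2b | _ => FB2s) 7 r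
  | .c, k, r => lk (match k with | 0 => FCa | 1 => FCb | _ => FCs) 9 r
  | .top, _, _ => 0

def zN : H7 → ℕ
  | .bot => 0
  | .a1 => 14
  | .a2 => 1605
  | .b1 => 715
  | .b2 => 582
  | .c => 236
  | .top => 3

def wz : H7 → ℕ
  | .bot => 1
  | .a1 => 401442
  | .a2 => 402466
  | .b1 => 390
  | .b2 => 25190
  | .c => 104598
  | .top => 6

/-- derivations of `z top` from `z x` and `z y` (incomparable pairs) -/
def joinD : H7 → H7 → ℕ
  | .a1, .b1 => 111298
  | .a1, .b2 => 17090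
  | .a1, .c => 26938
  | .a2, .b1 => 108658
  | .a2, .b2 => 32178
  | .a2, .c => 1147
  | .b1, .c => 121147
  | .b2, .c => 318235
  | _, _ => 1

/-- derivations of `z y` from `z x` for `y < x < top`, `y ≠ bot` -/
def chainD : H7 → H7 → ℕ
  | .a2, .a1 => 90
  | .b2, .b1 => 102
  | _, _ => 1

def chkRep (o : ℕ) : Bool :=
  evW 20 (wrd o) 0 == repN o &&
  evD (wrd o) 1 24 (lk DFW 24 o) 0 == zN (labL o) &&
  (labL o == .top || evD (wz (labL o)) 1 24 (lk DBW 24 o) 0 == repN o)

def chkX (c : ℕ) : Bool :=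
  hm c == repN (orbN c) && decide (orbN c < 74) &&
  keyN (labL (orbN c)) c == keyN (labL (orbN c)) 0 &&
  allL (fun l => !(keyN l c == keyN l 0) || H7.le (labL (orbN c)) l) &&
  allLt 3 (fun k => allL (fun l => keyN l (stepN k c) == indN l k (keyN l c))) &&
  keyN .a2 c == lk UPA 7 (keyN .a1 c) && keyN .b2 c == lk UPB 7 (keyN .b1 c)

def chkOrd (c : ℕ) : Bool :=
  (stepN 0)^[6] c == c && (stepN 1)^[4] c == c && (stepN 2)^[2] c == c

end Vale.Agent.Lib.P183.HX
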